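import Claimed.Agent.R282.Rep.Shift.Defs
import Claimed.Agent.R282.Sched.Shape

/-!
# Row 282, central shift: LEAF L-SHIFT-HEART (statement by helper103), ~600 lines

POSITIVE DATA.  `y(t) = pos` of the running state.
1. `y_i(t) ≥ lam_i - ∑_v ∑_j |v_j| > 0` for all states and all `t ∈ [0, T]` (balance: `c + frame (η t) = lam + ∑ over the past pieces of frame_k (increment)`; every frame is a signed permutation).
2. the endpoint `w ξ` is positive and `ξ > 0`, so `w` has no sign: replace it by the unsigned `σ`.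
3. `∑_i y_i(T) = ∑ ξ = ∑ lam + ∑ μ` forces every frame which is active on an interval of positive length to be unsigned (`∑ (w v)_i < ∑ v_i` if `w` has a sign, all `v_i > 0`).
4. from an unsigned frame a switch `β = ± (e_i + e_j)` is impossible (`0 ≤ total` excludes `+`; `0 ≤ gap = -(y_i + y_j)` excludes `-`), and a perm switch keeps the frame unsigned.
5. hence all signed frames occur at time `0`; the switches at time `0` have coefficient `0` (`η 0 = 0`) and do not move `c`: take `w0'` = the frame after them (an element of `WD n`, unsigned), `l'` = the rest.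
   `SwIndep` passes to sublists, `SwNoBlock .D` implies `SwNoBlock .A` at the same states.
The case `θ = []` is included (all times are `0`; `l' = []`).
-/

set_option autoImplicit false

namespace Claimed.Agent.R282

variable {n : ℕ}

/-! ### signed permutations and coordinate sums -/

theorem shh_act_apply (w : WD n) (x : Vec n) (i : Fin n) :
    w.act x i = sgnB (w.s i) * x (w.σ.symm i) := rfl

theorem shh_act_zero (w : WD n) : w.act 0 = 0 := by
  funext i
  simp [shh_act_apply]

theorem shh_act_sub (w : WD n) (x y : Vec n) : w.act (x - y) = w.act x - w.act y := by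
  funext i
  simp only [shh_act_apply, Pi.sub_apply]
  ring

theorem shh_sum_perm (w : WD n) (x : Vec n) : ∑ i, x (w.σ.symm i) = ∑ i, x i :=
  Equiv.sum_comp w.σ.symm x

theorem shh_sgnB_le (b : Bool) : sgnB b ≤ 1 := by cases b <;> simp [sgnB]

theorem shh_neg_le_sgnB (b : Bool) : -1 ≤ sgnB b := by cases b <;> simp [sgnB]

/-- lower bound of the coordinates of the image of a nonnegative vector -/
theorem shh_act_lower (w : WD n) (x : Vec n) (hx : ∀ i, 0 ≤ x i) (i : Fin n) :
    -(∑ j, x j) ≤ w.act x i := by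
  have h1 : x (w.σ.symm i) ≤ ∑ j, x j :=
    Finset.single_le_sum (fun j _ => hx j) (Finset.mem_univ _)
  have h2 := shh_neg_le_sgnB (w.s i)
  have h3 := hx (w.σ.symm i)
  rw [shh_act_apply]
  nlinarith

/-- the coordinate sum does not increase on nonnegative vectors -/
theorem shh_act_sum_le (w : WD n) (x : Vec n) (hx : ∀ i, 0 ≤ x i) :
    ∑ i, w.act x i ≤ ∑ i, x i := by
  rw [← shh_sum_perm w x]
  refine Finset.sum_le_sum fun i _ => ?_
  rw [shh_act_apply]
  have h2 := shh_sgnB_le (w.s i)
  have h3 := hx (w.σ.symm i)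
  nlinarith

/-- equality of the coordinate sums on a positive vector: no signs -/
theorem shh_unsigned_of_sum (w : WD n) (x : Vec n) (hx : ∀ i, 0 < x i)
    (h : ∑ i, x i ≤ ∑ i, w.act x i) : Ty.A.IsW w := by
  intro i
  by_contra hi
  have hi' : w.s i = true := by simpa using hi
  rw [← shh_sum_perm w x] at h
  have hlt : ∑ i, w.act x i < ∑ i, x (w.σ.symm i) := by
    refine Finset.sum_lt_sum (fun j _ => ?_) ⟨i, Finset.mem_univ _, ?_⟩
    · rw [shh_act_apply]
      have h2 := shh_sgnB_le (w.s j)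
      have h3 := (hx (w.σ.symm j)).le
      nlinarith
    · rw [shh_act_apply, hi']
      have h3 := hx (w.σ.symm i)
      simp only [sgnB, if_true]
      linarith
  linarith

/-- a positive image of a positive vector: no signs -/
theorem shh_unsigned_of_pos (w : WD n) (x : Vec n) (hx : ∀ i, 0 < x i)
    (h : ∀ i, 0 < w.act x i) : Ty.A.IsW w := by
  intro i
  by_contra hi
  have hi' : w.s i = true := by simpa using hi
  have h1 := h i
  rw [shh_act_apply, hi'] at h1
  have h3 := hx (w.σ.symm i)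
  simp only [sgnB, if_true] at h1
  linarith

theorem shh_unsigned_apply (w : WD n) (hw : Ty.A.IsW w) (x : Vec n) (i : Fin n) :
    w.act x i = x (w.σ.symm i) := by
  rw [shh_act_apply, hw i]
  simp [sgnB]

theorem shh_unsigned_sum (w : WD n) (hw : Ty.A.IsW w) (x : Vec n) :
    ∑ i, w.act x i = ∑ i, x i := by
  rw [← shh_sum_perm w x]
  exact Finset.sum_congr rfl fun i _ => shh_unsigned_apply w hw x i

/-! ### the shape -/

theorem shh_val_mono (θ : Shape n) (hθ : ∀ v ∈ θ, ∀ i, 0 < v i) {a b : ℝ} (hab : a ≤ b) (i : Fin n) :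
    θ.val a i ≤ θ.val b i := by
  have h := sc_dot_val_mono θ (Pi.single i 1) (fun v hv => by
    rw [sc_dot_comm, sc_dot_single]; exact (hθ v hv i).le) hab
  simp only [sc_dot_comm (Pi.single i 1), sc_dot_single] at h
  exact h

theorem shh_val_pos (θ : Shape n) (hθ : ∀ v ∈ θ, ∀ i, 0 < v i) {t : ℝ} (h0 : 0 < t)
    (hT : t ≤ (θ.length : ℝ)) (i : Fin n) : 0 < θ.val t i := by
  have h := sc_dot_val_strictMono θ (Pi.single i 1) (fun v hv => by
    rw [sc_dot_comm, sc_dot_single]; exact hθ v hv i)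
    (show (0 : ℝ) ∈ Set.Icc 0 (θ.length : ℝ) from ⟨le_rfl, h0.le.trans hT⟩)
    (show t ∈ Set.Icc 0 (θ.length : ℝ) from ⟨h0.le, hT⟩) h0
  simp only [sc_dot_comm (Pi.single i 1), sc_dot_single, sc_val_zero] at h
  exact h

theorem shh_sum_le (θ : Shape n) : ∑ i, θ.sum i ≤ (θ.map fun v => ∑ j, |v j|).sum := by
  induction θ with
  | nil => simp
  | cons v θ ih =>
    simp only [List.sum_cons, List.map_cons, Pi.add_apply, Finset.sum_add_distrib]
    exact add_le_add (Finset.sum_le_sum fun j _ => le_abs_self _) ih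

/-! ### one piece of the path -/

theorem shh_step_pos (S : SwState n) (θ : Shape n) (t : ℝ) (β : RootD n) :
    (S.step θ t β).pos θ t = S.pos θ t := by
  funext i
  simp only [SwState.step, SwState.pos, SwState.coeff, refl, Pi.add_apply, Pi.sub_apply,
    Pi.smul_apply, smul_eq_mul, sc_dot_comm β.vec]
  ring

theorem shh_piece (S : SwState n) (w : WD n) (hS : S.frame = w.act) (θ : Shape n) (a t : ℝ) :
    S.pos θ t = S.pos θ a + w.act (θ.val t - θ.val a) := by
  simp only [SwState.pos, hS, shh_act_sub]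
  abel

theorem shh_piece_lower (S : SwState n) (hS : IsFrame S.frame) (θ : Shape n)
    (hθ : ∀ v ∈ θ, ∀ i, 0 < v i) {a t : ℝ} (hat : a ≤ t) (i : Fin n) :
    S.pos θ a i - (∑ j, θ.val t j - ∑ j, θ.val a j) ≤ S.pos θ t i := by
  obtain ⟨w, hw⟩ := hS
  rw [shh_piece S w hw θ a t]
  have h := shh_act_lower w (θ.val t - θ.val a)
    (fun j => sub_nonneg.2 (shh_val_mono θ hθ hat j)) i
  simp only [Pi.sub_apply, Finset.sum_sub_distrib] at h
  simp only [Pi.add_apply]
  linarith

theorem shh_piece_sum (S : SwState n) (hS : IsFrame S.frame) (θ : Shape n)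
    (hθ : ∀ v ∈ θ, ∀ i, 0 < v i) {a t : ℝ} (hat : a ≤ t) :
    ∑ i, S.pos θ t i - ∑ i, S.pos θ a i ≤ ∑ j, θ.val t j - ∑ j, θ.val a j := by
  obtain ⟨w, hw⟩ := hS
  rw [shh_piece S w hw θ a t]
  have h := shh_act_sum_le w (θ.val t - θ.val a)
    (fun j => sub_nonneg.2 (shh_val_mono θ hθ hat j))
  simp only [Pi.sub_apply, Finset.sum_sub_distrib] at h
  simp only [Pi.add_apply, Finset.sum_add_distrib]
  linarith

/-! ### the whole run -/

/-- lower bound of the coordinates and upper bound of the coordinate sum along a run -/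
theorem shh_run (θ : Shape n) (hθ : ∀ v ∈ θ, ∀ i, 0 < v i) (l : List (ℝ × RootD n)) :
    ∀ (S : SwState n) (a : ℝ), IsFrame S.frame → a ≤ (θ.length : ℝ) →
      (∀ p ∈ l, a ≤ p.1 ∧ p.1 ≤ (θ.length : ℝ)) → l.Pairwise (fun p q => p.1 ≤ q.1) →
      (∀ i, S.pos θ a i - (∑ j, θ.val θ.length j - ∑ j, θ.val a j)
        ≤ (runSw θ S l).pos θ θ.length i) ∧
      ∑ i, (runSw θ S l).pos θ θ.length i - ∑ i, S.pos θ a i
        ≤ ∑ j, θ.val θ.length j - ∑ j, θ.val a j := by
  induction l with
  | nil =>
    intro S a hS haT _ _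
    exact ⟨fun i => shh_piece_lower S hS θ hθ haT i, shh_piece_sum S hS θ hθ haT⟩
  | cons p l ih =>
    intro S a hS haT ht hs
    obtain ⟨hp1, hp2⟩ := ht p (List.mem_cons_self)
    rw [List.pairwise_cons] at hs
    obtain ⟨ih1, ih2⟩ := ih (S.step θ p.1 p.2) p.1 (sc_isFrame_refl S.frame hS p.2) hp2
      (fun q hq => ⟨hs.1 q hq, (ht q (List.mem_cons_of_mem _ hq)).2⟩) hs.2
    rw [shh_step_pos] at ih2
    refine ⟨fun i => ?_, ?_⟩
    · have h1 := ih1 i
      rw [shh_step_pos] at h1
      have h2 := shh_piece_lower S hS θ hθ hp1 i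
      show _ ≤ (runSw θ (S.step θ p.1 p.2) l).pos θ θ.length i
      linarith
    · have h2 := shh_piece_sum S hS θ hθ hp1
      show ∑ i, (runSw θ (S.step θ p.1 p.2) l).pos θ θ.length i - _ ≤ _
      linarith

/-- from an unsigned frame all switches are permutation switches -/
theorem shh_perm (lam : Vec n) (θ : Shape n) (hθ : ∀ v ∈ θ, ∀ i, 0 < v i) (hne : θ ≠ [])
    (hlam : ∀ i, ∑ j, θ.sum j < lam i) (l : List (ℝ × RootD n)) :
    ∀ (S : SwState n) (a : ℝ), (∃ w : WD n, Ty.A.IsW w ∧ S.frame = w.act) →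
      (∀ i, lam i - ∑ j, θ.val a j ≤ S.pos θ a i) →
      (∀ p ∈ l, a ≤ p.1 ∧ p.1 ≤ (θ.length : ℝ)) → l.Pairwise (fun p q => p.1 ≤ q.1) →
      SwValid θ S l → ∀ p ∈ l, p.2.IsPerm := by
  have hT : (0 : ℝ) < θ.length := by
    have : 0 < θ.length := List.length_pos_iff.2 hne
    exact_mod_cast this
  have hμ : ∀ i, 0 < θ.sum i := fun i => by
    rw [← sc_val_length]; exact shh_val_pos θ hθ hT le_rfl i
  induction l with
  | nil => intro _ _ _ _ _ _ _ p hp; simp at hp
  | cons p l ih =>
    intro S a hS hpos ht hs hv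
    obtain ⟨w, hw, hSw⟩ := hS
    obtain ⟨hp1, hp2⟩ := ht p (List.mem_cons_self)
    rw [List.pairwise_cons] at hs
    obtain ⟨hgap, htot, hv'⟩ := hv
    -- positions are positive
    have hlow : ∀ i, lam i - ∑ j, θ.val p.1 j ≤ S.pos θ p.1 i := fun i => by
      have h1 := shh_piece_lower S ⟨w, hSw⟩ θ hθ hp1 i
      have h2 := hpos i
      linarith
    have hy : ∀ i, 0 < S.pos θ p.1 i := fun i => by
      have h1 := hlow i
      have h2 : ∑ j, θ.val p.1 j ≤ ∑ j, θ.sum j := by
        rw [← sc_val_length]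
        exact Finset.sum_le_sum fun j _ => shh_val_mono θ hθ hp2 j
      have h3 := hlam i
      linarith
    have hperm : p.2.IsPerm := by
      unfold RootD.IsPerm
      intro heq
      unfold SwState.gap at hgap
      unfold SwState.total at htot
      rw [sc_dot_vec] at hgap
      rw [sc_dot_comm, sc_dot_vec, hSw] at htot
      have h1 := hy p.2.i
      have h2 := hy p.2.j
      have h3 : 0 < w.act θ.sum p.2.i := by rw [shh_unsigned_apply w hw]; exact hμ _
      have h4 : 0 < w.act θ.sum p.2.j := by rw [shh_unsigned_apply w hw]; exact hμ _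
      rw [← heq] at hgap htot
      cases hsi : p.2.si <;> simp only [hsi, sgnB, if_true, if_false, Bool.false_eq_true] at hgap htot <;>
        linarith
    obtain ⟨r, hr, hract⟩ := sc_WA_refl p.2 hperm
    obtain ⟨w', hw', hw'act⟩ := sc_WA_mul r w hr hw
    have hS' : ∃ w : WD n, Ty.A.IsW w ∧ (S.step θ p.1 p.2).frame = w.act :=
      ⟨w', hw', by
        funext x
        show refl p.2 (S.frame x) = w'.act x
        rw [hw'act, hract, hSw]⟩
    have hrest := ih (S.step θ p.1 p.2) p.1 hS' (fun i => by rw [shh_step_pos]; exact hlow i)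
      (fun q hq => ⟨hs.1 q hq, (ht q (List.mem_cons_of_mem _ hq)).2⟩) hs.2 hv'
    intro q hq
    rcases List.mem_cons.1 hq with rfl | hq
    · exact hperm
    · exact hrest q hq

/-! ### the switches at time zero -/

/-- the switches at time `0` are absorbed in the initial frame -/
theorem shh_strip (lam : Vec n) (θ : Shape n) (l : List (ℝ × RootD n)) :
    ∀ w : WD n, (∀ p ∈ l, 0 ≤ p.1) → l.Pairwise (fun p q => p.1 ≤ q.1) →
      ∃ (w' : WD n) (l₀ l' : List (ℝ × RootD n)), l = l₀ ++ l' ∧ (∀ p ∈ l', 0 < p.1) ∧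
        runSw θ ⟨w.act, lam⟩ l = runSw θ ⟨w'.act, lam⟩ l' ∧
        (SwValid θ ⟨w.act, lam⟩ l → SwValid θ ⟨w'.act, lam⟩ l') ∧
        (SwNoBlock .D θ ⟨w.act, lam⟩ l → SwNoBlock .D θ ⟨w'.act, lam⟩ l') := by
  induction l with
  | nil => intro w _ _; exact ⟨w, [], [], rfl, by simp, rfl, id, id⟩
  | cons p l ih =>
    intro w ht hs
    rw [List.pairwise_cons] at hs
    rcases (ht p List.mem_cons_self).eq_or_lt with h0 | h0
    · obtain ⟨w₁, hw₁⟩ := sc_isFrame_refl w.act ⟨w, rfl⟩ p.2
      have hstep : (⟨w.act, lam⟩ : SwState n).step θ p.1 p.2 = ⟨w₁.act, lam⟩ := by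
        have hc : (⟨w.act, lam⟩ : SwState n).coeff θ p.1 p.2 = 0 := by
          simp only [SwState.coeff, ← h0, sc_val_zero, shh_act_zero, sc_dot_zero_right, neg_zero]
        simp only [SwState.step, hc, zero_smul, sub_zero, hw₁]
      obtain ⟨w', l₀, l', e, hpos, hrun, hval, hblk⟩ :=
        ih w₁ (fun q hq => ht q (List.mem_cons_of_mem _ hq)) hs.2
      refine ⟨w', p :: l₀, l', by rw [e, List.cons_append], hpos, ?_, ?_, ?_⟩
      · show runSw θ ((⟨w.act, lam⟩ : SwState n).step θ p.1 p.2) l = _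
        rw [hstep]; exact hrun
      · intro hv
        have hv' : SwValid θ ((⟨w.act, lam⟩ : SwState n).step θ p.1 p.2) l := hv.2.2
        rw [hstep] at hv'
        exact hval hv'
      · intro hb
        have hb' : SwNoBlock .D θ ((⟨w.act, lam⟩ : SwState n).step θ p.1 p.2) l := hb.2
        rw [hstep] at hb'
        exact hblk hb'
    · refine ⟨w, [], p :: l, rfl, ?_, rfl, id, id⟩
      intro q hq
      rcases List.mem_cons.1 hq with rfl | hq
      · exact h0
      · exact h0.trans_le (hs.1 q hq)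

theorem shh_noBlock_mono (θ : Shape n) (l : List (ℝ × RootD n)) :
    ∀ S : SwState n, SwNoBlock .D θ S l → SwNoBlock .A θ S l := by
  induction l with
  | nil => intro _ _; trivial
  | cons p l ih =>
    intro S h
    exact ⟨fun a d _ _ => h.1 a d trivial trivial, ih _ h.2⟩

theorem shh_indep_suffix {l₀ l' : List (ℝ × RootD n)} (h : SwIndep (l₀ ++ l')) : SwIndep l' := by
  unfold SwIndep at *
  have h1 := h.comp (fun i : Fin l'.length =>
    (⟨l₀.length + i, by rw [List.length_append]; exact Nat.add_lt_add_left i.2 _⟩ :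
      Fin (l₀ ++ l').length)) (by
      intro a b hab
      simp only [Fin.mk.injEq, Nat.add_left_cancel_iff] at hab
      exact Fin.ext hab)
  have e : (fun i : Fin l'.length => (l'.get i).2.vec)
      = (fun i : Fin (l₀ ++ l').length => ((l₀ ++ l').get i).2.vec) ∘ (fun i : Fin l'.length =>
    (⟨l₀.length + i, by rw [List.length_append]; exact Nat.add_lt_add_left i.2 _⟩ :
      Fin (l₀ ++ l').length)) := by
    funext i
    simp only [Function.comp, List.get_eq_getElem]
    rw [List.getElem_append_right (by omega)]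
    simp
  rw [e]
  exact h1

/-- (S6) -/
theorem sched_D_to_A (lam xi : Vec n) (θ : Shape n) (hθ : ∀ v ∈ θ, ∀ i, 0 < v i)
    (hlam : ∀ i, (θ.map fun v => ∑ j, |v j|).sum < lam i) (hxi : ∀ i, 0 < xi i)
    (hsum : ∑ i, xi i = ∑ i, lam i + ∑ i, θ.sum i) (w0 : WD n) (l : List (ℝ × RootD n))
    (h : IsSched .D lam θ xi w0 l) (hi : SwIndep l) (hb : SwNoBlock .D θ ⟨w0.act, lam⟩ l) :
    ∃ w0' l', IsSched .A lam θ xi w0' l' ∧ SwIndep l' ∧ SwNoBlock .A θ ⟨w0'.act, lam⟩ l' := by
  have hlam' : ∀ i, ∑ j, θ.sum j < lam i := fun i => (shh_sum_le θ).trans_lt (hlam i)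
  obtain ⟨w', l₀, l', e, hpos, hrun, hval, hblk⟩ :=
    shh_strip lam θ l w0 (fun p hp => (h.times_mem p hp).1) h.sorted
  have hval' := hval h.valid
  have hblk' := hblk hb
  have hmem : ∀ p ∈ l', p ∈ l := fun p hp => by rw [e]; exact List.mem_append_right _ hp
  have htimes : ∀ p ∈ l', 0 ≤ p.1 ∧ p.1 ≤ (θ.length : ℝ) := fun p hp => h.times_mem p (hmem p hp)
  have hsorted : l'.Pairwise (fun p q => p.1 ≤ q.1) := by
    have := h.sorted
    rw [e, List.pairwise_append] at this
    exact this.2.1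
  have hindep : SwIndep l' := shh_indep_suffix (e ▸ hi)
  obtain ⟨w, -, hend⟩ := h.endpoint
  rw [hrun] at hend
  have hT0 : (0 : ℝ) ≤ θ.length := Nat.cast_nonneg _
  obtain ⟨hrun1, -⟩ := shh_run θ hθ l' ⟨w'.act, lam⟩ 0 ⟨w', rfl⟩ hT0 htimes hsorted
  have hpos0 : (⟨w'.act, lam⟩ : SwState n).pos θ 0 = lam := by
    simp only [SwState.pos, sc_val_zero, shh_act_zero, add_zero]
  have hendpos : ∀ i, 0 < w.act xi i := fun i => by
    have h1 := hrun1 i
    rw [hend, hpos0, sc_val_length, sc_val_zero] at h1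
    have := hlam' i
    simp only [Pi.zero_apply, Finset.sum_const_zero, sub_zero] at h1
    linarith
  have hw : Ty.A.IsW w := shh_unsigned_of_pos w xi hxi hendpos
  have hsumend : ∑ i, (runSw θ ⟨w'.act, lam⟩ l').pos θ θ.length i
      = ∑ i, lam i + ∑ i, θ.sum i := by
    rw [hend, shh_unsigned_sum w hw, hsum]
  by_cases hne : θ = []
  · subst hne
    have hl' : l' = [] := by
      rcases l' with _ | ⟨p, l''⟩
      · rfl
      · exfalso
        have h1 := hpos p List.mem_cons_self
        have h2 := (htimes p List.mem_cons_self).2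
        simp only [List.length_nil, Nat.cast_zero] at h2
        linarith
    subst hl'
    refine ⟨⟨1, fun _ => false, by simp⟩, [], ⟨fun _ => rfl, by simp, by simp, List.Pairwise.nil,
      trivial, w, hw, ?_⟩, hindep, trivial⟩
    rw [← hend]
    simp only [runSw, SwState.pos, Shape.val, shh_act_zero]
  · have hTpos : (0 : ℝ) < θ.length := by
      have : 0 < θ.length := List.length_pos_iff.2 hne
      exact_mod_cast this
    have hw' : Ty.A.IsW w' := by
      rcases l' with _ | ⟨p, l''⟩
      · refine shh_unsigned_of_sum w' θ.sum (fun i => ?_) ?_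
        · rw [← sc_val_length]; exact shh_val_pos θ hθ hTpos le_rfl i
        · have h1 : (runSw θ ⟨w'.act, lam⟩ []).pos θ θ.length = lam + w'.act θ.sum := by
            simp only [runSw, SwState.pos, sc_val_length]
          rw [h1] at hsumend
          simp only [Pi.add_apply, Finset.sum_add_distrib] at hsumend
          linarith
      · have hp0 := hpos p List.mem_cons_self
        have hpT := (htimes p List.mem_cons_self).2
        rw [List.pairwise_cons] at hsorted
        obtain ⟨-, h2⟩ := shh_run θ hθ l'' ((⟨w'.act, lam⟩ : SwState n).step θ p.1 p.2) p.1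
          (sc_isFrame_refl _ ⟨w', rfl⟩ p.2) hpT
          (fun q hq => ⟨hsorted.1 q hq, (htimes q (List.mem_cons_of_mem _ hq)).2⟩) hsorted.2
        rw [shh_step_pos] at h2
        have h3 : (⟨w'.act, lam⟩ : SwState n).pos θ p.1 = lam + w'.act (θ.val p.1) := rfl
        have h4 : runSw θ ⟨w'.act, lam⟩ (p :: l'')
            = runSw θ ((⟨w'.act, lam⟩ : SwState n).step θ p.1 p.2) l'' := rfl
        rw [h4] at hsumend
        rw [hsumend, h3, sc_val_length] at h2
        simp only [Pi.add_apply, Finset.sum_add_distrib] at h2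
        exact shh_unsigned_of_sum w' (θ.val p.1) (fun i => shh_val_pos θ hθ hp0 hpT i)
          (by linarith)
    have hperm := shh_perm lam θ hθ hne hlam' l' ⟨w'.act, lam⟩ 0 ⟨w', hw', rfl⟩
      (fun i => by rw [hpos0, sc_val_zero]; simp) htimes hsorted hval'
    exact ⟨w', l', ⟨hw', hperm, htimes, hsorted, hval', w, hw, hend⟩, hindep,
      shh_noBlock_mono θ l' _ hblk'⟩

end Claimed.Agent.R282
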