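import Claimed.Agent.R282.Rep.Shift.Defs
import Claimed.Agent.R282.Sched.Shape

/-!
# Row 282, central shift: LEAF L-SHIFT-SCHED (state machine of `Defs/Basic`; statements by helper103)

Perm roots `e_i - e_j` are orthogonal to `oneV`; unsigned frames (`w0.act` with `Ty.A.IsW w0`, composed with reflections in perm roots) fix `oneV` and are linear.
`(θ.shiftOne c).val t = θ.val t + (∑_j clamp (t - j)) c • oneV`; gaps, totals, coefficients of perm roots do not change; positions move by a multiple of `oneV`.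
-/

set_option autoImplicit false

namespace Claimed.Agent.R282

variable {n : ℕ}

/-! ### unsigned frames -/

/-- an unsigned frame -/
def ShsA (F : Vec n → Vec n) : Prop := ∃ u : WD n, Ty.A.IsW u ∧ F = u.act

theorem shs_act_apply (u : WD n) (hu : Ty.A.IsW u) (x : Vec n) (i : Fin n) :
    u.act x i = x (u.σ.symm i) := by
  show sgnB (u.s i) * x (u.σ.symm i) = _
  rw [hu i]
  simp [sgnB]

theorem shs_A_step (F : Vec n → Vec n) (hF : ShsA F) (β : RootD n) (hβ : β.IsPerm) :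
    ShsA (fun x => refl β (F x)) := by
  obtain ⟨u, hu, rfl⟩ := hF
  obtain ⟨r, hr, hr'⟩ := sc_WA_refl β hβ
  obtain ⟨m, hm, hm'⟩ := sc_WA_mul r u hr hu
  exact ⟨m, hm, by funext x; rw [hm', hr']⟩

theorem shs_A_shift (F : Vec n → Vec n) (hF : ShsA F) (x : Vec n) (a : ℝ) :
    F (x + a • oneV n) = F x + a • oneV n := by
  obtain ⟨u, hu, rfl⟩ := hF
  funext i
  simp [shs_act_apply u hu, oneV]

theorem shs_A_sum (F : Vec n → Vec n) (hF : ShsA F) (x : Vec n) : ∑ i, F x i = ∑ i, x i := by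
  obtain ⟨u, hu, rfl⟩ := hF
  simp only [shs_act_apply u hu]
  exact Equiv.sum_comp u.σ.symm x

theorem shs_A_zero (F : Vec n → Vec n) (hF : ShsA F) : F 0 = 0 := by
  obtain ⟨u, hu, rfl⟩ := hF
  funext i
  simp [shs_act_apply u hu]

theorem shs_dot_one (β : RootD n) (hβ : β.IsPerm) : dot (oneV n) β.vec = 0 := by
  rw [sc_dot_vec]
  unfold RootD.IsPerm at hβ
  cases h1 : β.si <;> cases h2 : β.sj <;> simp_all [sgnB, oneV]

theorem shs_sum_vec (β : RootD n) (hβ : β.IsPerm) : ∑ i, β.vec i = 0 := by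
  have h := shs_dot_one β hβ
  simpa [dot, oneV] using h

theorem shs_dot_shift (x : Vec n) (a : ℝ) (β : RootD n) (hβ : β.IsPerm) :
    dot (x + a • oneV n) β.vec = dot x β.vec := by
  rw [sc_dot_add_left, sc_dot_smul_left, shs_dot_one β hβ]
  ring

/-! ### the shifted shape -/

/-- `∑_{j < k} clamp (t - j)` -/
def shsK : ℕ → ℝ → ℝ
  | 0, _ => 0
  | k + 1, t => max 0 (min t 1) + shsK k (t - 1)

theorem shs_K_self (k : ℕ) : shsK k k = k := by
  induction k with
  | zero => simp [shsK]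
  | succ k ih =>
    have h1 : ((k + 1 : ℕ) : ℝ) - 1 = k := by push_cast; ring
    have h2 : min ((k + 1 : ℕ) : ℝ) 1 = 1 := by
      apply min_eq_right
      push_cast
      have : (0 : ℝ) ≤ k := Nat.cast_nonneg k
      linarith
    show max 0 (min ((k + 1 : ℕ) : ℝ) 1) + shsK k (((k + 1 : ℕ) : ℝ) - 1) = ((k + 1 : ℕ) : ℝ)
    rw [h1, h2, ih]
    push_cast
    rw [max_eq_right zero_le_one]
    ring

theorem shs_length_shift (θ : Shape n) (c : ℝ) : (θ.shiftOne c).length = θ.length := by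
  simp [Shape.shiftOne]

theorem shs_val_shift (θ : Shape n) (c t : ℝ) :
    (θ.shiftOne c).val t = θ.val t + (shsK θ.length t * c) • oneV n := by
  induction θ generalizing t with
  | nil => simp [Shape.shiftOne, Shape.val, shsK]
  | cons v θ ih =>
    show (max 0 (min t 1)) • (v + c • oneV n) + Shape.val (Shape.shiftOne θ c) (t - 1)
      = (max 0 (min t 1)) • v + Shape.val θ (t - 1)
        + ((max 0 (min t 1) + shsK θ.length (t - 1)) * c) • oneV n
    rw [ih]
    funext i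
    simp only [Pi.add_apply, Pi.smul_apply, smul_eq_mul, oneV]
    ring

theorem shape_shift_sum (θ : Shape n) (c : ℝ) :
    (θ.shiftOne c).sum = θ.sum + ((θ.length : ℝ) * c) • oneV n := by
  induction θ with
  | nil => simp [Shape.shiftOne]
  | cons v θ ih =>
    show (v + c • oneV n) + (Shape.shiftOne θ c).sum = _
    rw [ih]
    funext i
    simp only [List.sum_cons, List.length_cons, Pi.add_apply, Pi.smul_apply, smul_eq_mul, oneV]
    push_cast
    ring

/-! ### the state machine -/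

/-- the shifted state -/
def shsSt (S : SwState n) (s : ℝ) : SwState n := ⟨S.frame, S.c + s • oneV n⟩

theorem shs_pos (θ : Shape n) (S : SwState n) (hS : ShsA S.frame) (s c t : ℝ) :
    (shsSt S s).pos (θ.shiftOne c) t = S.pos θ t + (s + shsK θ.length t * c) • oneV n := by
  show S.c + s • oneV n + S.frame ((θ.shiftOne c).val t) = S.c + S.frame (θ.val t) + _
  rw [shs_val_shift, shs_A_shift _ hS, add_smul]
  abel

theorem shs_coeff (θ : Shape n) (S : SwState n) (hS : ShsA S.frame) (s c t : ℝ) (β : RootD n)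
    (hβ : β.IsPerm) : (shsSt S s).coeff (θ.shiftOne c) t β = S.coeff θ t β := by
  show - dot β.vec (S.frame ((θ.shiftOne c).val t)) = - dot β.vec (S.frame (θ.val t))
  rw [shs_val_shift, shs_A_shift _ hS, sc_dot_comm, shs_dot_shift _ _ β hβ, sc_dot_comm]

theorem shs_gap (θ : Shape n) (S : SwState n) (hS : ShsA S.frame) (s c t : ℝ) (β : RootD n)
    (hβ : β.IsPerm) : (shsSt S s).gap (θ.shiftOne c) t β = S.gap θ t β := by
  show dot ((shsSt S s).pos (θ.shiftOne c) t) β.vec = dot (S.pos θ t) β.vec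
  rw [shs_pos θ S hS, shs_dot_shift _ _ β hβ]

theorem shs_frame_sum (θ : Shape n) (S : SwState n) (hS : ShsA S.frame) (c : ℝ) (β : RootD n)
    (hβ : β.IsPerm) : dot (S.frame (θ.shiftOne c).sum) β.vec = dot (S.frame θ.sum) β.vec := by
  rw [shape_shift_sum, shs_A_shift _ hS, shs_dot_shift _ _ β hβ]

theorem shs_total (θ : Shape n) (S : SwState n) (hS : ShsA S.frame) (s c : ℝ) (β : RootD n)
    (hβ : β.IsPerm) : (shsSt S s).total (θ.shiftOne c) β = S.total θ β := by
  show - dot β.vec (S.frame (θ.shiftOne c).sum) = - dot β.vec (S.frame θ.sum)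
  rw [sc_dot_comm, shs_frame_sum θ S hS c β hβ, sc_dot_comm]

theorem shs_step (θ : Shape n) (S : SwState n) (hS : ShsA S.frame) (s c t : ℝ) (β : RootD n)
    (hβ : β.IsPerm) : (shsSt S s).step (θ.shiftOne c) t β = shsSt (S.step θ t β) s := by
  show (⟨fun x => refl β (S.frame x), S.c + s • oneV n - (shsSt S s).coeff (θ.shiftOne c) t β • β.vec⟩
      : SwState n)
    = ⟨fun x => refl β (S.frame x), S.c - S.coeff θ t β • β.vec + s • oneV n⟩
  rw [shs_coeff θ S hS s c t β hβ]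
  congr 1
  abel

theorem shs_step_A (θ : Shape n) (S : SwState n) (hS : ShsA S.frame) (t : ℝ) (β : RootD n)
    (hβ : β.IsPerm) : ShsA (S.step θ t β).frame := shs_A_step _ hS β hβ

theorem shs_run (θ : Shape n) (s c : ℝ) (l : List (ℝ × RootD n)) :
    ∀ (S : SwState n), ShsA S.frame → (∀ p ∈ l, p.2.IsPerm) →
      runSw (θ.shiftOne c) (shsSt S s) l = shsSt (runSw θ S l) s ∧ ShsA (runSw θ S l).frame := by
  induction l with
  | nil => intro S hS _; exact ⟨rfl, hS⟩
  | cons p l ih =>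
    intro S hS hl
    have hp : p.2.IsPerm := hl p (by simp)
    show runSw (θ.shiftOne c) ((shsSt S s).step (θ.shiftOne c) p.1 p.2) l
        = shsSt (runSw θ (S.step θ p.1 p.2) l) s ∧ ShsA (runSw θ (S.step θ p.1 p.2) l).frame
    rw [shs_step θ S hS s c p.1 p.2 hp]
    exact ih _ (shs_step_A θ S hS p.1 p.2 hp) (fun q hq => hl q (by simp [hq]))

theorem shs_valid (θ : Shape n) (s c : ℝ) (l : List (ℝ × RootD n)) :
    ∀ (S : SwState n), ShsA S.frame → (∀ p ∈ l, p.2.IsPerm) → SwValid θ S l →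
      SwValid (θ.shiftOne c) (shsSt S s) l := by
  induction l with
  | nil => intro S _ _ _; trivial
  | cons p l ih =>
    intro S hS hl hv
    have hp : p.2.IsPerm := hl p (by simp)
    obtain ⟨h1, h2, h3⟩ := hv
    refine ⟨?_, ?_, ?_⟩
    · rw [shs_gap θ S hS s c p.1 p.2 hp]; exact h1
    · rw [shs_total θ S hS s c p.2 hp]; exact h2
    · rw [shs_step θ S hS s c p.1 p.2 hp]
      exact ih _ (shs_step_A θ S hS p.1 p.2 hp) (fun q hq => hl q (by simp [hq])) h3

theorem shs_noBlock (θ : Shape n) (s c : ℝ) (l : List (ℝ × RootD n)) :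
    ∀ (S : SwState n), ShsA S.frame → (∀ p ∈ l, p.2.IsPerm) → SwNoBlock .A θ S l →
      SwNoBlock .A (θ.shiftOne c) (shsSt S s) l := by
  induction l with
  | nil => intro S _ _ _; trivial
  | cons p l ih =>
    intro S hS hl hv
    have hp : p.2.IsPerm := hl p (by simp)
    obtain ⟨h1, h3⟩ := hv
    refine ⟨?_, ?_⟩
    · intro a d ha hd had
      have ha' : a.IsPerm := ha
      have hd' : d.IsPerm := hd
      rw [shs_pos θ S hS, shs_dot_shift _ _ a ha', shs_dot_shift _ _ d hd']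
      show ¬ (_ ∧ _ ∧ dot (S.frame (θ.shiftOne c).sum) a.vec < 0
        ∧ dot (S.frame (θ.shiftOne c).sum) d.vec < 0)
      rw [shs_frame_sum θ S hS c a ha', shs_frame_sum θ S hS c d hd']
      exact h1 a d ha hd had
    · rw [shs_step θ S hS s c p.1 p.2 hp]
      exact ih _ (shs_step_A θ S hS p.1 p.2 hp) (fun q hq => hl q (by simp [hq])) h3

/-- (S4) -/
theorem sched_shift (lam xi : Vec n) (θ : Shape n) (w0 : WD n) (l : List (ℝ × RootD n)) (s c : ℝ)
    (h : IsSched .A lam θ xi w0 l) :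
    IsSched .A (lam + s • oneV n) (θ.shiftOne c) (xi + (s + (θ.length : ℝ) * c) • oneV n) w0 l := by
  have hS : ShsA (⟨w0.act, lam⟩ : SwState n).frame := ⟨w0, h.w0_mem, rfl⟩
  have hl : ∀ p ∈ l, p.2.IsPerm := h.roots_mem
  refine ⟨h.w0_mem, h.roots_mem, ?_, h.sorted, shs_valid θ s c l _ hS hl h.valid, ?_⟩
  · rw [shs_length_shift]; exact h.times_mem
  · obtain ⟨w, hw, he⟩ := h.endpoint
    refine ⟨w, hw, ?_⟩
    obtain ⟨h1, h2⟩ := shs_run θ s c l _ hS hl
    have h1' : runSw (θ.shiftOne c) ⟨w0.act, lam + s • oneV n⟩ l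
        = shsSt (runSw θ ⟨w0.act, lam⟩ l) s := h1
    rw [h1', shs_length_shift, shs_pos θ _ h2, he, shs_K_self,
      shs_A_shift w.act ⟨w, hw, rfl⟩]

/-- (S4') -/
theorem noBlock_shift (lam : Vec n) (θ : Shape n) (w0 : WD n) (hw : Ty.A.IsW w0)
    (l : List (ℝ × RootD n)) (hl : ∀ p ∈ l, Ty.A.IsRoot p.2) (s c : ℝ)
    (h : SwNoBlock .A θ ⟨w0.act, lam⟩ l) :
    SwNoBlock .A (θ.shiftOne c) ⟨w0.act, lam + s • oneV n⟩ l :=
  shs_noBlock θ s c l ⟨w0.act, lam⟩ ⟨w0, hw, rfl⟩ hl h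

/-! ### the coordinate sum -/

theorem shs_run_sum (θ : Shape n) (l : List (ℝ × RootD n)) :
    ∀ (S : SwState n), (∀ p ∈ l, p.2.IsPerm) → ∑ i, (runSw θ S l).c i = ∑ i, S.c i := by
  induction l with
  | nil => intro S _; rfl
  | cons p l ih =>
    intro S hl
    have hp : p.2.IsPerm := hl p (by simp)
    show ∑ i, (runSw θ (S.step θ p.1 p.2) l).c i = _
    rw [ih _ (fun q hq => hl q (by simp [hq]))]
    show ∑ i, (S.c - S.coeff θ p.1 p.2 • p.2.vec) i = _
    simp only [Pi.sub_apply, Pi.smul_apply, smul_eq_mul, Finset.sum_sub_distrib, ← Finset.mul_sum,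
      shs_sum_vec p.2 hp]
    ring

/-- (S5) -/
theorem sched_A_central (lam xi : Vec n) (θ : Shape n) (w0 : WD n) (l : List (ℝ × RootD n))
    (h : IsSched .A lam θ xi w0 l) : ∑ i, xi i = ∑ i, lam i + ∑ i, θ.sum i := by
  have hS : ShsA (⟨w0.act, lam⟩ : SwState n).frame := ⟨w0, h.w0_mem, rfl⟩
  have hl : ∀ p ∈ l, p.2.IsPerm := h.roots_mem
  obtain ⟨w, hw, he⟩ := h.endpoint
  obtain ⟨-, h2⟩ := shs_run θ 0 0 l _ hS hl
  have h3 := shs_run_sum θ l ⟨w0.act, lam⟩ hl
  have h4 : ∑ i, (runSw θ ⟨w0.act, lam⟩ l).pos θ θ.length i = ∑ i, w.act xi i := by rw [he]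
  rw [shs_A_sum w.act ⟨w, hw, rfl⟩] at h4
  rw [← h4]
  show ∑ i, ((runSw θ ⟨w0.act, lam⟩ l).c + (runSw θ ⟨w0.act, lam⟩ l).frame (θ.val θ.length)) i = _
  simp only [Pi.add_apply, Finset.sum_add_distrib]
  rw [h3, shs_A_sum _ h2, sc_val_length]

/-! ### the shift constants -/

theorem shs_abs_le_total (θ : Shape n) (v : Vec n) (hv : v ∈ θ) (i : Fin n) :
    |v i| ≤ (θ.map fun v => ∑ j, |v j|).sum := by
  have h1 : |v i| ≤ ∑ j, |v j| :=
    Finset.single_le_sum (f := fun j => |v j|) (fun j _ => abs_nonneg _) (Finset.mem_univ i)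
  have h2 : ∑ j, |v j| ≤ (θ.map fun v => ∑ j, |v j|).sum := by
    apply List.single_le_sum
    · intro x hx
      obtain ⟨u, -, rfl⟩ := List.mem_map.1 hx
      exact Finset.sum_nonneg fun j _ => abs_nonneg _
    · exact List.mem_map.2 ⟨v, hv, rfl⟩
  exact h1.trans h2

theorem shs_total_nonneg (θ : Shape n) : 0 ≤ (θ.map fun v => ∑ j, |v j|).sum := by
  apply List.sum_nonneg
  intro x hx
  obtain ⟨u, -, rfl⟩ := List.mem_map.1 hx
  exact Finset.sum_nonneg fun j _ => abs_nonneg _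

theorem shs_sum_pos (θ : Shape n) (h0 : θ ≠ []) (hθ : ∀ v ∈ θ, ∀ i, 0 < v i) (i : Fin n) :
    0 < θ.sum i := by
  induction θ with
  | nil => exact absurd rfl h0
  | cons v θ ih =>
    rw [List.sum_cons, Pi.add_apply]
    have hv := hθ v (by simp) i
    by_cases h1 : θ = []
    · subst h1
      simpa using hv
    · have := ih h1 (fun u hu => hθ u (by simp [hu]))
      linarith

/-- existence of the shift constants (finite maxima) -/
theorem exists_shift (lam xi : Vec n) (θ : Shape n) :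
    ∃ s c : ℝ, (∀ v ∈ θ.shiftOne c, ∀ i, 0 < v i) ∧
      (∀ i, ((θ.shiftOne c).map fun v => ∑ j, |v j|).sum < (lam + s • oneV n) i) ∧
      (∀ i, 0 < (lam + s • oneV n) i) ∧
      (∀ i, 0 < (xi + (s + (θ.length : ℝ) * c) • oneV n) i) ∧
      (θ ≠ [] → ∀ i, 0 < (θ.shiftOne c).sum i) := by
  obtain ⟨c, hc⟩ : ∃ c : ℝ, c = 1 + (θ.map fun v => ∑ j, |v j|).sum := ⟨_, rfl⟩
  obtain ⟨A, hA⟩ : ∃ A : ℝ, A = ((θ.shiftOne c).map fun v => ∑ j, |v j|).sum := ⟨_, rfl⟩
  have hA0 : 0 ≤ A := hA ▸ shs_total_nonneg _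
  have hc1 : 1 ≤ c := by
    have := shs_total_nonneg θ
    linarith
  have hpos : ∀ v ∈ θ.shiftOne c, ∀ i, 0 < v i := by
    intro v hv i
    obtain ⟨u, hu, rfl⟩ := List.mem_map.1 hv
    have h1 := shs_abs_le_total θ u hu i
    have h2 := neg_abs_le (u i)
    simp only [Pi.add_apply, Pi.smul_apply, smul_eq_mul, oneV]
    linarith
  have hl : ∀ i, |lam i| ≤ ∑ j, |lam j| := fun i =>
    Finset.single_le_sum (f := fun j => |lam j|) (fun j _ => abs_nonneg _) (Finset.mem_univ i)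
  have hx : ∀ i, |xi i| ≤ ∑ j, |xi j| := fun i =>
    Finset.single_le_sum (f := fun j => |xi j|) (fun j _ => abs_nonneg _) (Finset.mem_univ i)
  have hl0 : 0 ≤ ∑ j, |lam j| := Finset.sum_nonneg fun j _ => abs_nonneg _
  have hx0 : 0 ≤ ∑ j, |xi j| := Finset.sum_nonneg fun j _ => abs_nonneg _
  have hlen : 0 ≤ (θ.length : ℝ) * c := mul_nonneg (Nat.cast_nonneg _) (by linarith)
  refine ⟨1 + A + ∑ j, |lam j| + ∑ j, |xi j|, c, hpos, ?_, ?_, ?_, ?_⟩
  · intro i
    rw [← hA]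
    have h2 := neg_abs_le (lam i)
    have h3 := hl i
    simp only [Pi.add_apply, Pi.smul_apply, smul_eq_mul, oneV]
    linarith
  · intro i
    have h2 := neg_abs_le (lam i)
    have h3 := hl i
    simp only [Pi.add_apply, Pi.smul_apply, smul_eq_mul, oneV]
    linarith
  · intro i
    have h2 := neg_abs_le (xi i)
    have h3 := hx i
    simp only [Pi.add_apply, Pi.smul_apply, smul_eq_mul, oneV]
    linarith
  · intro h0 i
    apply shs_sum_pos _ _ hpos
    intro h
    apply h0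
    simpa [Shape.shiftOne] using h

/-! ### the empty shape -/

theorem shs_run_nil (l : List (ℝ × RootD n)) :
    ∀ (S : SwState n), ShsA S.frame → (∀ p ∈ l, p.2.IsPerm) →
      (runSw ([] : Shape n) S l).c = S.c := by
  induction l with
  | nil => intro S _ _; rfl
  | cons p l ih =>
    intro S hS hl
    have hp : p.2.IsPerm := hl p (by simp)
    show (runSw ([] : Shape n) (S.step [] p.1 p.2) l).c = _
    rw [ih _ (shs_step_A [] S hS p.1 p.2 hp) (fun q hq => hl q (by simp [hq]))]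
    show S.c - (- dot p.2.vec (S.frame 0)) • p.2.vec = S.c
    rw [shs_A_zero _ hS, sc_dot_zero_right]
    simp

theorem shs_perm_unitary (σ : Equiv.Perm (Fin n)) :
    σ.permMatrix ℂ ∈ Matrix.unitaryGroup (Fin n) ℂ := by
  rw [Matrix.mem_unitaryGroup_iff, Matrix.star_eq_conjTranspose, Matrix.conjTranspose_permMatrix,
    ← Matrix.permMatrix_mul]
  simp

theorem shs_perm_conj (σ : Equiv.Perm (Fin n)) (x : Fin n → ℂ) :
    σ.permMatrix ℂ * Matrix.diagonal x * (σ.permMatrix ℂ).conjTranspose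
      = Matrix.diagonal (fun i => x (σ i)) := by
  rw [Matrix.conjTranspose_permMatrix]
  ext i j
  rw [Matrix.mul_assoc, PEquiv.toMatrix_toPEquiv_mul, Matrix.submatrix_apply,
    PEquiv.mul_toMatrix_toPEquiv, Matrix.submatrix_apply]
  have h1 : (Equiv.symm σ⁻¹) j = σ j := rfl
  simp only [id, h1, Matrix.diagonal_apply, σ.injective.eq_iff]

/-- the empty shape (no motion): `A`-schedule with `θ = []` -/
theorem schedMoment_A_nil (lam xi : Vec n) (h : ∃ w0 l, IsSched .A lam ([] : Shape n) xi w0 l) :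
    MomentA lam 0 xi := by
  obtain ⟨w0, l, h⟩ := h
  have hS : ShsA (⟨w0.act, lam⟩ : SwState n).frame := ⟨w0, h.w0_mem, rfl⟩
  have hl : ∀ p ∈ l, p.2.IsPerm := h.roots_mem
  obtain ⟨w, hw, he⟩ := h.endpoint
  obtain ⟨-, h2⟩ := shs_run ([] : Shape n) 0 0 l _ hS hl
  have h3 := shs_run_nil l ⟨w0.act, lam⟩ hS hl
  have h4 : lam = w.act xi := by
    rw [← he]
    show lam = (runSw ([] : Shape n) ⟨w0.act, lam⟩ l).c
      + (runSw ([] : Shape n) ⟨w0.act, lam⟩ l).frame 0
    rw [h3, shs_A_zero _ h2]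
    simp
  refine ⟨1, 1, ⟨Equiv.Perm.permMatrix ℂ w.σ⁻¹, shs_perm_unitary _⟩, ?_⟩
  show (1 : Matrix (Fin n) (Fin n) ℂ) * Matrix.diagonal (fun i => (lam i : ℂ))
        * (1 : Matrix (Fin n) (Fin n) ℂ).conjTranspose
      + (1 : Matrix (Fin n) (Fin n) ℂ) * Matrix.diagonal (fun i => (((0 : Vec n) i : ℝ) : ℂ))
        * (1 : Matrix (Fin n) (Fin n) ℂ).conjTranspose
      = Equiv.Perm.permMatrix ℂ w.σ⁻¹ * Matrix.diagonal (fun i => (xi i : ℂ))
        * (Equiv.Perm.permMatrix ℂ w.σ⁻¹).conjTranspose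
  rw [shs_perm_conj, h4]
  have h5 : ∀ i, w.act xi i = xi (w.σ⁻¹ i) := fun i => shs_act_apply w hw xi i
  simp [h5]

end Claimed.Agent.R282
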