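import Claimed.Agent.R282.S34.Defs

/-!
# Row 282, central shift: definitions (helper103)
-/

set_option autoImplicit false

namespace Claimed.Agent.R282

variable {n : ℕ}

/-- the central vector -/
def oneV (n : ℕ) : Vec n := fun _ => 1

/-- shift of a shape: every increment `+ c (1, .., 1)` -/
def Shape.shiftOne (θ : Shape n) (c : ℝ) : Shape n := θ.map fun v => v + c • oneV n

end Claimed.Agent.R282
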