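import Claimed.Agent.R282.Rep.Shift.Defs

/-!
# Row 282, central shift: LEAF L-SHIFT-MOM (Hermitian / skew linear algebra; statements by helper103)

* (S1) `momentD_of_momentA` : realification `ℂⁿ = ℝ²ⁿ`; the realification of a unitary matrix lies in `SO(2n)` (`det = |det U|² = 1`); `± i·(U diag(a) U^*)` becomes `g J(a) gᵀ`
  (index set `Fin n × Fin 2`; fix ONE sign convention for the three terms).
* (S2) `momentA_of_momentD_pos` : `A' = i A`, `B' = i B`, `C' = i C` are Hermitian `2n × 2n` with eigenvalues `± a_i`, .. ; `P` = spectral projection of `C'` on the positive eigenvalues.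
  `tr(P C') = ∑ c`.  For `A' = A₊ - A₋` (`A₊, A₋ ≥ 0`): `tr(P A') ≤ tr(P A₊) ≤ tr A₊ = ∑ a`, equality iff `ran P` = positive eigenspace of `A'` (all `a_i > 0`, dimension count).
  `∑ c = tr(PA') + tr(PB') ≤ ∑ a + ∑ b = ∑ c`, so `P` commutes with `A', B', C'`; compress to `ran P ≅ ℂⁿ` (orthonormal basis): Hermitian with spectra `a, b, c`; diagonalise.
* (S3) `momentA_shift` : add scalar matrices.   * `momentA_central` : traces.
-/

set_option autoImplicit false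

namespace Claimed.Agent.R282

open Matrix

variable {n : ℕ}

/-- the `2n × n` matrix `1 ⊗ u`. -/
def shm_K (n : ℕ) (u : Fin 2 → ℂ) : Matrix (Fin n × Fin 2) (Fin n) ℂ :=
  fun p q => if p.1 = q then u p.2 else 0

theorem shm_K_mul (u : Fin 2 → ℂ) (M : Matrix (Fin n) (Fin n) ℂ) (p : Fin n × Fin 2) (r : Fin n) :
    (shm_K n u * M) p r = u p.2 * M p.1 r := by
  simp [Matrix.mul_apply, shm_K]

theorem shm_K_sandwich (u v : Fin 2 → ℂ) (M : Matrix (Fin n) (Fin n) ℂ) (p q : Fin n × Fin 2) :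
    (shm_K n u * M * (shm_K n v)ᴴ) p q = u p.2 * M p.1 q.1 * (starRingEnd ℂ) (v q.2) := by
  rw [Matrix.mul_apply]
  simp only [shm_K_mul, Matrix.conjTranspose_apply, shm_K]
  simp [apply_ite]

theorem shm_KH_K (u v : Fin 2 → ℂ) :
    (shm_K n u)ᴴ * shm_K n v = (∑ α, (starRingEnd ℂ) (u α) * v α) • (1 : Matrix (Fin n) (Fin n) ℂ) := by
  ext q q'
  rw [Matrix.mul_apply, Fintype.sum_prod_type]
  simp only [Matrix.conjTranspose_apply, shm_K, Matrix.smul_apply, Matrix.one_apply, smul_eq_mul]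
  by_cases h : q = q'
  · subst h
    simp [apply_ite]
  · rw [if_neg h, mul_zero]
    apply Finset.sum_eq_zero
    intro p _
    apply Finset.sum_eq_zero
    intro α _
    by_cases h1 : p = q
    · have h2 : ¬ p = q' := by rw [h1]; exact h
      simp [h2]
    · simp [h1]

/-- the eigenvector `(1, -i)`. -/
def shm_w : Fin 2 → ℂ := ![1, -Complex.I]

/-- the eigenvector `(1, i)`. -/
def shm_w' : Fin 2 → ℂ := ![1, Complex.I]

/-- `W₊`. -/
def shm_P (n : ℕ) : Matrix (Fin n × Fin 2) (Fin n) ℂ := shm_K n shm_w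

/-- `W₋`. -/
def shm_M (n : ℕ) : Matrix (Fin n × Fin 2) (Fin n) ℂ := shm_K n shm_w'

theorem shm_PP : (shm_P n)ᴴ * shm_P n = (2 : ℂ) • (1 : Matrix (Fin n) (Fin n) ℂ) := by
  unfold shm_P
  rw [shm_KH_K]
  congr 1
  simp [shm_w, Fin.sum_univ_two]
  norm_num

theorem shm_MM : (shm_M n)ᴴ * shm_M n = (2 : ℂ) • (1 : Matrix (Fin n) (Fin n) ℂ) := by
  unfold shm_M
  rw [shm_KH_K]
  congr 1
  simp [shm_w', Fin.sum_univ_two]
  norm_num

theorem shm_PM : (shm_P n)ᴴ * shm_M n = 0 := by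
  unfold shm_P shm_M
  rw [shm_KH_K]
  simp [shm_w, shm_w', Fin.sum_univ_two]

theorem shm_MP : (shm_M n)ᴴ * shm_P n = 0 := by
  unfold shm_P shm_M
  rw [shm_KH_K]
  simp [shm_w, shm_w', Fin.sum_univ_two]

theorem shm_res : shm_P n * (shm_P n)ᴴ + shm_M n * (shm_M n)ᴴ
    = (2 : ℂ) • (1 : Matrix (Fin n × Fin 2) (Fin n × Fin 2) ℂ) := by
  ext p q
  have h1 := shm_K_sandwich shm_w shm_w (1 : Matrix (Fin n) (Fin n) ℂ) p q
  have h2 := shm_K_sandwich shm_w' shm_w' (1 : Matrix (Fin n) (Fin n) ℂ) p q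
  rw [Matrix.mul_one] at h1 h2
  rw [Matrix.add_apply]
  unfold shm_P shm_M
  rw [h1, h2]
  obtain ⟨p1, p2⟩ := p
  obtain ⟨q1, q2⟩ := q
  simp only [Matrix.smul_apply, Matrix.one_apply, Prod.mk.injEq, smul_eq_mul]
  by_cases h : p1 = q1
  · subst h
    fin_cases p2 <;> fin_cases q2 <;> simp [shm_w, shm_w'] <;> norm_num
  · simp [h]

/-- complexification of real matrices. -/
noncomputable def shm_cx {ι : Type} [Fintype ι] [DecidableEq ι] : Matrix ι ι ℝ →+* Matrix ι ι ℂ :=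
  Complex.ofRealHom.mapMatrix

theorem shm_cx_apply {ι : Type} [Fintype ι] [DecidableEq ι] (A : Matrix ι ι ℝ) (i j : ι) :
    shm_cx A i j = (A i j : ℂ) := rfl

theorem shm_cx_transpose {ι : Type} [Fintype ι] [DecidableEq ι] (A : Matrix ι ι ℝ) :
    shm_cx Aᵀ = (shm_cx A)ᴴ := by
  ext i j
  simp [shm_cx_apply]

theorem shm_cx_inj {ι : Type} [Fintype ι] [DecidableEq ι] {A B : Matrix ι ι ℝ}
    (h : shm_cx A = shm_cx B) : A = B := by
  ext i j
  have := congrFun (congrFun h i) j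
  rw [shm_cx_apply, shm_cx_apply] at this
  exact_mod_cast this

/-- the diagonal matrix. -/
noncomputable def shm_D (x : Vec n) : Matrix (Fin n) (Fin n) ℂ := Matrix.diagonal fun i => (x i : ℂ)

theorem shm_J (x : Vec n) : (2 * Complex.I) • shm_cx (Jmat x)
    = shm_P n * shm_D x * (shm_P n)ᴴ - shm_M n * shm_D x * (shm_M n)ᴴ := by
  ext p q
  rw [Matrix.sub_apply]
  unfold shm_P shm_M
  rw [shm_K_sandwich, shm_K_sandwich]
  obtain ⟨p1, p2⟩ := p
  obtain ⟨q1, q2⟩ := q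
  simp only [Matrix.smul_apply, shm_cx_apply, Jmat, shm_D, Matrix.diagonal_apply, smul_eq_mul]
  by_cases h : p1 = q1
  · subst h
    fin_cases p2 <;> fin_cases q2 <;> simp [shm_w, shm_w'] <;> ring
  · simp [h]

/-! ### realification -/

/-- entrywise conjugation. -/
noncomputable def shm_bar : Matrix (Fin n) (Fin n) ℂ →+* Matrix (Fin n) (Fin n) ℂ :=
  (starRingEnd ℂ).mapMatrix

theorem shm_bar_apply (Z : Matrix (Fin n) (Fin n) ℂ) (i j : Fin n) :
    shm_bar Z i j = (starRingEnd ℂ) (Z i j) := rfl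

/-- the complexified realification. -/
noncomputable def shm_R (Z : Matrix (Fin n) (Fin n) ℂ) : Matrix (Fin n × Fin 2) (Fin n × Fin 2) ℂ :=
  (1 / 2 : ℂ) • (shm_P n * Z * (shm_P n)ᴴ + shm_M n * shm_bar Z * (shm_M n)ᴴ)

/-- the realification. -/
noncomputable def shm_rho (Z : Matrix (Fin n) (Fin n) ℂ) : Matrix (Fin n × Fin 2) (Fin n × Fin 2) ℝ :=
  fun p q => (shm_w p.2 * Z p.1 q.1 * (starRingEnd ℂ) (shm_w q.2)).re

theorem shm_w'_eq (α : Fin 2) : shm_w' α = (starRingEnd ℂ) (shm_w α) := by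
  fin_cases α <;> simp [shm_w, shm_w']

theorem shm_cx_rho (Z : Matrix (Fin n) (Fin n) ℂ) : shm_cx (shm_rho Z) = shm_R Z := by
  ext p q
  rw [shm_cx_apply, shm_rho, shm_R, Matrix.smul_apply, Matrix.add_apply]
  unfold shm_P shm_M
  rw [shm_K_sandwich, shm_K_sandwich, shm_bar_apply, shm_w'_eq, shm_w'_eq, Complex.re_eq_add_conj]
  simp only [map_mul, Complex.conj_conj, smul_eq_mul]
  ring

theorem shm_R_P (Z : Matrix (Fin n) (Fin n) ℂ) : shm_R Z * shm_P n = shm_P n * Z := by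
  have e : shm_R Z * shm_P n = (1 / 2 : ℂ) • (shm_P n * Z * ((shm_P n)ᴴ * shm_P n)
      + shm_M n * shm_bar Z * ((shm_M n)ᴴ * shm_P n)) := by
    simp only [shm_R, Matrix.smul_mul, Matrix.add_mul, Matrix.mul_assoc]
  rw [e, shm_PP, shm_MP, Matrix.mul_zero, add_zero, Matrix.mul_smul, Matrix.mul_one, smul_smul]
  norm_num

theorem shm_R_M (Z : Matrix (Fin n) (Fin n) ℂ) : shm_R Z * shm_M n = shm_M n * shm_bar Z := by
  have e : shm_R Z * shm_M n = (1 / 2 : ℂ) • (shm_P n * Z * ((shm_P n)ᴴ * shm_M n)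
      + shm_M n * shm_bar Z * ((shm_M n)ᴴ * shm_M n)) := by
    simp only [shm_R, Matrix.smul_mul, Matrix.add_mul, Matrix.mul_assoc]
  rw [e, shm_MM, shm_PM, Matrix.mul_zero, zero_add, Matrix.mul_smul, Matrix.mul_one, smul_smul]
  norm_num

theorem shm_R_mul (Z₁ Z₂ : Matrix (Fin n) (Fin n) ℂ) : shm_R Z₁ * shm_R Z₂ = shm_R (Z₁ * Z₂) := by
  have e : shm_R Z₁ * shm_R Z₂ = (1 / 2 : ℂ) • ((shm_R Z₁ * shm_P n) * Z₂ * (shm_P n)ᴴ
      + (shm_R Z₁ * shm_M n) * shm_bar Z₂ * (shm_M n)ᴴ) := by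
    conv_lhs => rw [shm_R.eq_1 Z₂]
    simp only [Matrix.mul_smul, Matrix.mul_add, Matrix.mul_assoc]
  rw [e, shm_R_P, shm_R_M, shm_R, map_mul]
  simp only [Matrix.mul_assoc]

theorem shm_R_one : shm_R (1 : Matrix (Fin n) (Fin n) ℂ) = 1 := by
  rw [shm_R, map_one, Matrix.mul_one, Matrix.mul_one, shm_res, smul_smul]
  norm_num

theorem shm_R_add (Z₁ Z₂ : Matrix (Fin n) (Fin n) ℂ) : shm_R Z₁ + shm_R Z₂ = shm_R (Z₁ + Z₂) := by
  simp only [shm_R, map_add, Matrix.mul_add, Matrix.add_mul, smul_add]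
  abel

theorem shm_bar_H (Z : Matrix (Fin n) (Fin n) ℂ) : (shm_bar Z)ᴴ = shm_bar Zᴴ := by
  ext i j
  simp [shm_bar_apply]

theorem shm_R_H (Z : Matrix (Fin n) (Fin n) ℂ) : (shm_R Z)ᴴ = shm_R Zᴴ := by
  rw [shm_R, shm_R, Matrix.conjTranspose_smul, Matrix.conjTranspose_add]
  simp only [conjTranspose_mul, conjTranspose_conjTranspose, shm_bar_H, Matrix.mul_assoc]
  congr 1
  simp

theorem shm_bar_smul_D (x : Vec n) : shm_bar ((-Complex.I) • shm_D x) = Complex.I • shm_D x := by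
  ext i j
  by_cases h : i = j
  · subst h
    simp [shm_bar_apply, shm_D]
  · simp [shm_bar_apply, shm_D, h]

theorem shm_R_J (x : Vec n) : shm_cx (Jmat x) = shm_R ((-Complex.I) • shm_D x) := by
  have h := shm_J x
  rw [shm_R, shm_bar_smul_D]
  simp only [Matrix.mul_smul, Matrix.smul_mul]
  have e : (1 / 2 : ℂ) • ((-Complex.I) • (shm_P n * shm_D x * (shm_P n)ᴴ)
      + Complex.I • (shm_M n * shm_D x * (shm_M n)ᴴ))
      = (-Complex.I / 2) • (shm_P n * shm_D x * (shm_P n)ᴴ - shm_M n * shm_D x * (shm_M n)ᴴ) := by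
    rw [smul_add, smul_sub, smul_smul, smul_smul, sub_eq_add_neg, ← neg_smul]
    congr 2 <;> ring
  rw [e, ← h, smul_smul]
  have : -Complex.I / 2 * (2 * Complex.I) = 1 := by
    have := Complex.I_mul_I
    linear_combination (-1 : ℂ) * this
  rw [this, one_smul]

/-- `[W₊ | W₋]`. -/
def shm_WW (n : ℕ) : Matrix (Fin n × Fin 2) (Fin n × Fin 2) ℂ :=
  fun p q => if q.2 = 0 then shm_P n p q.1 else shm_M n p q.1

/-- `diag (Z, conj Z)`. -/
noncomputable def shm_B (Z : Matrix (Fin n) (Fin n) ℂ) : Matrix (Fin n × Fin 2) (Fin n × Fin 2) ℂ :=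
  Matrix.blockDiagonal fun k : Fin 2 => if k = 0 then Z else shm_bar Z

theorem shm_mul_WW (A : Matrix (Fin n × Fin 2) (Fin n × Fin 2) ℂ) (p q : Fin n × Fin 2) :
    (A * shm_WW n) p q = if q.2 = 0 then (A * shm_P n) p q.1 else (A * shm_M n) p q.1 := by
  split_ifs with h <;> simp [Matrix.mul_apply, shm_WW, h]

theorem shm_WW_B (Z : Matrix (Fin n) (Fin n) ℂ) (p q : Fin n × Fin 2) :
    (shm_WW n * shm_B Z) p q
      = if q.2 = 0 then (shm_P n * Z) p q.1 else (shm_M n * shm_bar Z) p q.1 := by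
  obtain ⟨q1, q2⟩ := q
  rw [Matrix.mul_apply, Fintype.sum_prod_type]
  simp only [shm_B, Matrix.blockDiagonal_apply', Fin.sum_univ_two, shm_WW]
  fin_cases q2 <;> simp [Matrix.mul_apply]

theorem shm_intertwine (Z : Matrix (Fin n) (Fin n) ℂ) : shm_R Z * shm_WW n = shm_WW n * shm_B Z := by
  ext p q
  rw [shm_mul_WW, shm_WW_B, shm_R_P, shm_R_M]

theorem shm_WW_WWH : shm_WW n * (shm_WW n)ᴴ = (2 : ℂ) • (1 : Matrix (Fin n × Fin 2) (Fin n × Fin 2) ℂ) := by
  rw [← shm_res]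
  ext p q
  rw [Matrix.mul_apply, Fintype.sum_prod_type, Matrix.add_apply, Matrix.mul_apply, Matrix.mul_apply,
    ← Finset.sum_add_distrib]
  refine Finset.sum_congr rfl fun r _ => ?_
  simp [Fin.sum_univ_two, shm_WW]

theorem shm_det_WW : (shm_WW n).det ≠ 0 := by
  intro h
  have h1 := congrArg Matrix.det (shm_WW_WWH (n := n))
  rw [Matrix.det_mul, h, zero_mul, Matrix.det_smul, Matrix.det_one, mul_one] at h1
  exact pow_ne_zero _ two_ne_zero h1.symm

theorem shm_det_R {g : Matrix (Fin n) (Fin n) ℂ} (hg : g * gᴴ = 1) : (shm_R g).det = 1 := by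
  have h1 := congrArg Matrix.det (shm_intertwine g)
  rw [Matrix.det_mul, Matrix.det_mul, mul_comm] at h1
  have h2 := mul_left_cancel₀ shm_det_WW h1
  rw [h2, shm_B, Matrix.det_blockDiagonal, Fin.prod_univ_two]
  simp only [if_true, one_ne_zero, if_false]
  have h3 : (shm_bar g).det = (starRingEnd ℂ) g.det := ((starRingEnd ℂ).map_det g).symm
  have h4 := congrArg Matrix.det hg
  rw [Matrix.det_mul, Matrix.det_conjTranspose, Matrix.det_one] at h4
  rw [h3]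
  exact h4

theorem shm_rho_mem (g : Matrix.unitaryGroup (Fin n) ℂ) :
    shm_rho g.1 ∈ Matrix.specialOrthogonalGroup (Fin n × Fin 2) ℝ := by
  have hg : g.1 * g.1ᴴ = 1 := Matrix.mem_unitaryGroup_iff.1 g.2
  rw [Matrix.mem_specialOrthogonalGroup_iff, Matrix.mem_orthogonalGroup_iff]
  constructor
  · apply shm_cx_inj
    rw [map_mul, shm_cx_transpose, shm_cx_rho, shm_R_H, shm_R_mul, hg, shm_R_one, map_one]
  · have h1 : ((shm_rho g.1).det : ℂ) = (shm_cx (shm_rho g.1)).det := Complex.ofRealHom.map_det _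
    rw [shm_cx_rho, shm_det_R hg] at h1
    exact_mod_cast h1

theorem shm_rho_conj (g : Matrix (Fin n) (Fin n) ℂ) (x : Vec n) :
    shm_cx (shm_rho g * Jmat x * (shm_rho g)ᵀ) = shm_R ((-Complex.I) • (g * shm_D x * gᴴ)) := by
  rw [map_mul, map_mul, shm_cx_transpose, shm_cx_rho, shm_R_H, shm_R_J, shm_R_mul, shm_R_mul,
    Matrix.mul_smul, Matrix.smul_mul]

/-- (S1) -/
theorem momentD_of_momentA (a b c : Vec n) (h : MomentA a b c) : MomentD a b c := by
  obtain ⟨g, h', k, e⟩ := h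
  have e' : g.1 * shm_D a * g.1ᴴ + h'.1 * shm_D b * h'.1ᴴ = k.1 * shm_D c * k.1ᴴ := e
  refine ⟨⟨_, shm_rho_mem g⟩, ⟨_, shm_rho_mem h'⟩, ⟨_, shm_rho_mem k⟩, ?_⟩
  apply shm_cx_inj
  rw [map_add, shm_rho_conj, shm_rho_conj, shm_rho_conj, shm_R_add, ← smul_add, e']

/-! ### compression -/

section compress

variable (U : Matrix (Fin n × Fin 2) (Fin n × Fin 2) ℂ)

/-- `W₊^* U W₊`. -/
noncomputable def shm_X : Matrix (Fin n) (Fin n) ℂ := (shm_P n)ᴴ * U * shm_P n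
/-- `W₊^* U W₋`. -/
noncomputable def shm_Y : Matrix (Fin n) (Fin n) ℂ := (shm_P n)ᴴ * U * shm_M n
/-- `W₋^* U W₊`. -/
noncomputable def shm_Z : Matrix (Fin n) (Fin n) ℂ := (shm_M n)ᴴ * U * shm_P n

variable {U}

theorem shm_XX_YY (hU : U * Uᴴ = 1) :
    shm_X U * (shm_X U)ᴴ + shm_Y U * (shm_Y U)ᴴ = (4 : ℂ) • (1 : Matrix (Fin n) (Fin n) ℂ) := by
  have e : shm_X U * (shm_X U)ᴴ + shm_Y U * (shm_Y U)ᴴ
      = (shm_P n)ᴴ * (U * (shm_P n * (shm_P n)ᴴ + shm_M n * (shm_M n)ᴴ) * Uᴴ) * shm_P n := by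
    simp only [shm_X, shm_Y, conjTranspose_mul, conjTranspose_conjTranspose, Matrix.mul_add,
      Matrix.add_mul, Matrix.mul_assoc]
  rw [e, shm_res, Matrix.mul_smul, Matrix.mul_one, Matrix.smul_mul, hU, Matrix.mul_smul, Matrix.mul_one,
    Matrix.smul_mul, shm_PP, smul_smul]
  norm_num

theorem shm_XX_ZZ (hU : Uᴴ * U = 1) :
    (shm_X U)ᴴ * shm_X U + (shm_Z U)ᴴ * shm_Z U = (4 : ℂ) • (1 : Matrix (Fin n) (Fin n) ℂ) := by
  have e : (shm_X U)ᴴ * shm_X U + (shm_Z U)ᴴ * shm_Z U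
      = (shm_P n)ᴴ * (Uᴴ * (shm_P n * (shm_P n)ᴴ + shm_M n * (shm_M n)ᴴ) * U) * shm_P n := by
    simp only [shm_X, shm_Z, conjTranspose_mul, conjTranspose_conjTranspose, Matrix.mul_add,
      Matrix.add_mul, Matrix.mul_assoc]
  rw [e, shm_res, Matrix.mul_smul, Matrix.mul_one, Matrix.smul_mul, hU, Matrix.mul_smul, Matrix.mul_one,
    Matrix.smul_mul, shm_PP, smul_smul]
  norm_num

theorem shm_compress (x : Vec n) :
    (shm_P n)ᴴ * (U * ((2 * Complex.I) • shm_cx (Jmat x)) * Uᴴ) * shm_P n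
      = shm_X U * shm_D x * (shm_X U)ᴴ - shm_Y U * shm_D x * (shm_Y U)ᴴ := by
  rw [shm_J]
  simp only [shm_X, shm_Y, conjTranspose_mul, conjTranspose_conjTranspose, Matrix.mul_sub,
    Matrix.sub_mul, Matrix.mul_assoc]

theorem shm_compress_one (x : Vec n) :
    (shm_P n)ᴴ * ((2 * Complex.I) • shm_cx (Jmat x)) * shm_P n = (4 : ℂ) • shm_D x := by
  rw [shm_J]
  have e : (shm_P n)ᴴ * (shm_P n * shm_D x * (shm_P n)ᴴ - shm_M n * shm_D x * (shm_M n)ᴴ) * shm_P n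
      = ((shm_P n)ᴴ * shm_P n) * shm_D x * ((shm_P n)ᴴ * shm_P n)
        - ((shm_P n)ᴴ * shm_M n) * shm_D x * ((shm_M n)ᴴ * shm_P n) := by
    simp only [Matrix.mul_sub, Matrix.sub_mul, Matrix.mul_assoc]
  rw [e, shm_PP, shm_PM]
  simp only [Matrix.smul_mul, Matrix.mul_smul, Matrix.one_mul, Matrix.mul_one, Matrix.zero_mul, sub_zero,
    smul_smul]
  norm_num

end compress

/-- squared norm of a column. -/
noncomputable def shm_col (N : Matrix (Fin n) (Fin n) ℂ) (j : Fin n) : ℝ := ∑ i, ‖N i j‖ ^ 2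

theorem shm_col_nonneg (N : Matrix (Fin n) (Fin n) ℂ) (j : Fin n) : 0 ≤ shm_col N j :=
  Finset.sum_nonneg fun _ _ => sq_nonneg _

theorem shm_gram_diag (N : Matrix (Fin n) (Fin n) ℂ) (j : Fin n) : (Nᴴ * N) j j = (shm_col N j : ℂ) := by
  rw [Matrix.mul_apply, shm_col]
  push_cast
  refine Finset.sum_congr rfl fun i _ => ?_
  rw [Matrix.conjTranspose_apply]
  exact Complex.conj_mul' _

theorem shm_eq_zero_of_col {N : Matrix (Fin n) (Fin n) ℂ} (h : ∀ j, shm_col N j = 0) : N = 0 := by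
  ext i j
  have h1 := (Finset.sum_eq_zero_iff_of_nonneg (fun i _ => sq_nonneg ‖N i j‖)).1 (h j) i (Finset.mem_univ i)
  simpa using h1

theorem shm_trace (N : Matrix (Fin n) (Fin n) ℂ) (x : Vec n) :
    Matrix.trace (N * shm_D x * Nᴴ) = ((∑ j, x j * shm_col N j : ℝ) : ℂ) := by
  rw [Matrix.trace_mul_comm, ← Matrix.mul_assoc, Matrix.trace]
  push_cast
  refine Finset.sum_congr rfl fun j _ => ?_
  rw [Matrix.diag_apply, shm_D, Matrix.mul_diagonal, shm_gram_diag, mul_comm]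

theorem shm_trace_D (x : Vec n) : Matrix.trace (shm_D x) = ((∑ j, x j : ℝ) : ℂ) := by
  simp [shm_D, Matrix.trace_diagonal]

theorem shm_orth {G : Matrix (Fin n × Fin 2) (Fin n × Fin 2) ℝ}
    (hG : G ∈ Matrix.orthogonalGroup (Fin n × Fin 2) ℝ) :
    shm_cx G * (shm_cx G)ᴴ = 1 ∧ (shm_cx G)ᴴ * shm_cx G = 1 := by
  have h1 : G * Gᵀ = 1 := (Matrix.mem_orthogonalGroup_iff _ _).1 hG
  have h2 : Gᵀ * G = 1 := (Matrix.mem_orthogonalGroup_iff' _ _).1 hG
  rw [← shm_cx_transpose, ← map_mul, ← map_mul, h1, h2, map_one]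
  exact ⟨rfl, rfl⟩

/-- the core of (S2), with `k = 1`. -/
theorem shm_core (a b c : Vec n) (ha : ∀ i, 0 < a i) (hb : ∀ i, 0 < b i)
    (hsum : ∑ i, c i = ∑ i, a i + ∑ i, b i) {G H : Matrix (Fin n × Fin 2) (Fin n × Fin 2) ℝ}
    (hG : G ∈ Matrix.orthogonalGroup (Fin n × Fin 2) ℝ) (hH : H ∈ Matrix.orthogonalGroup (Fin n × Fin 2) ℝ)
    (h : G * Jmat a * Gᵀ + H * Jmat b * Hᵀ = Jmat c) : MomentA a b c := by
  obtain ⟨gA1, gA2⟩ := shm_orth hG
  obtain ⟨gB1, gB2⟩ := shm_orth hH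
  -- the compressed equation
  have hstar : shm_X (shm_cx G) * shm_D a * (shm_X (shm_cx G))ᴴ
        - shm_Y (shm_cx G) * shm_D a * (shm_Y (shm_cx G))ᴴ
      + (shm_X (shm_cx H) * shm_D b * (shm_X (shm_cx H))ᴴ
        - shm_Y (shm_cx H) * shm_D b * (shm_Y (shm_cx H))ᴴ) = (4 : ℂ) • shm_D c := by
    rw [← shm_compress, ← shm_compress, ← shm_compress_one, ← h, map_add, map_mul, map_mul, map_mul, map_mul,
      shm_cx_transpose, shm_cx_transpose]
    simp only [Matrix.mul_add, Matrix.add_mul, Matrix.mul_smul, Matrix.smul_mul, smul_add, Matrix.mul_assoc]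
  set U := shm_cx G with hU
  set V := shm_cx H with hV
  -- traces
  have htr := congrArg Matrix.trace hstar
  rw [Matrix.trace_add, Matrix.trace_sub, Matrix.trace_sub, shm_trace, shm_trace, shm_trace, shm_trace,
    Matrix.trace_smul, shm_trace_D] at htr
  have htr' : (∑ j, a j * shm_col (shm_X U) j) - (∑ j, a j * shm_col (shm_Y U) j)
      + ((∑ j, b j * shm_col (shm_X V) j) - (∑ j, b j * shm_col (shm_Y V) j)) = 4 * ∑ j, c j := by
    have : (4 : ℂ) • ((∑ j, c j : ℝ) : ℂ) = ((4 * ∑ j, c j : ℝ) : ℂ) := by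
      push_cast; rfl
    rw [this] at htr
    exact_mod_cast htr
  have hcolU : ∀ j, shm_col (shm_X U) j + shm_col (shm_Z U) j = 4 := by
    intro j
    have := congrFun (congrFun (shm_XX_ZZ gA2) j) j
    rw [Matrix.add_apply, shm_gram_diag, shm_gram_diag] at this
    simp only [Matrix.smul_apply, Matrix.one_apply_eq, smul_eq_mul, mul_one] at this
    exact_mod_cast this
  have hcolV : ∀ j, shm_col (shm_X V) j + shm_col (shm_Z V) j = 4 := by
    intro j
    have := congrFun (congrFun (shm_XX_ZZ gB2) j) j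
    rw [Matrix.add_apply, shm_gram_diag, shm_gram_diag] at this
    simp only [Matrix.smul_apply, Matrix.one_apply_eq, smul_eq_mul, mul_one] at this
    exact_mod_cast this
  have hzero : ∑ j, (a j * (shm_col (shm_Z U) j + shm_col (shm_Y U) j)
      + b j * (shm_col (shm_Z V) j + shm_col (shm_Y V) j)) = 0 := by
    have e1 : ∑ j, a j * shm_col (shm_X U) j = 4 * ∑ j, a j - ∑ j, a j * shm_col (shm_Z U) j := by
      rw [Finset.mul_sum, ← Finset.sum_sub_distrib]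
      refine Finset.sum_congr rfl fun j _ => ?_
      have := hcolU j
      linear_combination a j * this
    have e2 : ∑ j, b j * shm_col (shm_X V) j = 4 * ∑ j, b j - ∑ j, b j * shm_col (shm_Z V) j := by
      rw [Finset.mul_sum, ← Finset.sum_sub_distrib]
      refine Finset.sum_congr rfl fun j _ => ?_
      have := hcolV j
      linear_combination b j * this
    rw [e1, e2, hsum] at htr'
    simp only [mul_add, Finset.sum_add_distrib]
    linarith
  have hterm := (Finset.sum_eq_zero_iff_of_nonneg (fun j _ => add_nonneg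
    (mul_nonneg (ha j).le (add_nonneg (shm_col_nonneg (shm_Z U) j) (shm_col_nonneg (shm_Y U) j)))
    (mul_nonneg (hb j).le (add_nonneg (shm_col_nonneg (shm_Z V) j) (shm_col_nonneg (shm_Y V) j))))).1 hzero
  have hYU : shm_Y U = 0 := by
    apply shm_eq_zero_of_col
    intro j
    have h1 := hterm j (Finset.mem_univ j)
    have h2 := mul_nonneg (ha j).le (add_nonneg (shm_col_nonneg (shm_Z U) j) (shm_col_nonneg (shm_Y U) j))
    have h3 := mul_nonneg (hb j).le (add_nonneg (shm_col_nonneg (shm_Z V) j) (shm_col_nonneg (shm_Y V) j))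
    have h4 : a j * (shm_col (shm_Z U) j + shm_col (shm_Y U) j) = 0 := by linarith
    have h5 := (mul_eq_zero.1 h4).resolve_left (ha j).ne'
    linarith [shm_col_nonneg (shm_Z U) j, shm_col_nonneg (shm_Y U) j]
  have hYV : shm_Y V = 0 := by
    apply shm_eq_zero_of_col
    intro j
    have h1 := hterm j (Finset.mem_univ j)
    have h2 := mul_nonneg (ha j).le (add_nonneg (shm_col_nonneg (shm_Z U) j) (shm_col_nonneg (shm_Y U) j))
    have h3 := mul_nonneg (hb j).le (add_nonneg (shm_col_nonneg (shm_Z V) j) (shm_col_nonneg (shm_Y V) j))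
    have h4 : b j * (shm_col (shm_Z V) j + shm_col (shm_Y V) j) = 0 := by linarith
    have h5 := (mul_eq_zero.1 h4).resolve_left (hb j).ne'
    linarith [shm_col_nonneg (shm_Z V) j, shm_col_nonneg (shm_Y V) j]
  have hXU := shm_XX_YY gA1
  have hXV := shm_XX_YY gB1
  rw [hYU] at hXU hstar
  rw [hYV] at hXV hstar
  simp only [Matrix.zero_mul, add_zero, sub_zero] at hXU hXV hstar
  have hmem : ∀ X : Matrix (Fin n) (Fin n) ℂ, X * Xᴴ = (4 : ℂ) • (1 : Matrix (Fin n) (Fin n) ℂ) →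
      ((1 / 2 : ℂ) • X) ∈ Matrix.unitaryGroup (Fin n) ℂ := by
    intro X hX
    rw [Matrix.mem_unitaryGroup_iff, Matrix.star_eq_conjTranspose, Matrix.conjTranspose_smul,
      Matrix.smul_mul, Matrix.mul_smul, hX, smul_smul, smul_smul]
    have : (1 / 2 : ℂ) * star (1 / 2 : ℂ) * 4 = 1 := by
      simp
      norm_num
    rw [this, one_smul]
  refine ⟨⟨_, hmem _ hXU⟩, ⟨_, hmem _ hXV⟩, 1, ?_⟩
  show ((1 / 2 : ℂ) • shm_X U) * shm_D a * ((1 / 2 : ℂ) • shm_X U)ᴴ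
    + ((1 / 2 : ℂ) • shm_X V) * shm_D b * ((1 / 2 : ℂ) • shm_X V)ᴴ = 1 * shm_D c * (1 : Matrix (Fin n) (Fin n) ℂ)ᴴ
  rw [Matrix.conjTranspose_smul, Matrix.conjTranspose_smul, Matrix.conjTranspose_one, Matrix.one_mul,
    Matrix.mul_one]
  simp only [Matrix.smul_mul, Matrix.mul_smul, smul_smul]
  have h4 : (1 / 2 : ℂ) * star (1 / 2 : ℂ) = 1 / 4 := by
    simp
    norm_num
  have h4' : star (1 / 2 : ℂ) * (1 / 2 : ℂ) = 1 / 4 := by rw [mul_comm]; exact h4
  simp only [h4']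
  rw [← smul_add, hstar, smul_smul]
  norm_num

/-- (S2) -/
theorem momentA_of_momentD_pos (a b c : Vec n) (ha : ∀ i, 0 < a i) (hb : ∀ i, 0 < b i)
    (hc : ∀ i, 0 < c i) (hsum : ∑ i, c i = ∑ i, a i + ∑ i, b i) (h : MomentD a b c) :
    MomentA a b c := by
  obtain ⟨g, h', k, e⟩ := h
  have hg := (Matrix.mem_specialOrthogonalGroup_iff.1 g.2).1
  have hh := (Matrix.mem_specialOrthogonalGroup_iff.1 h'.2).1
  have hk := (Matrix.mem_specialOrthogonalGroup_iff.1 k.2).1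
  have hk2 : k.1ᵀ * k.1 = 1 := (Matrix.mem_orthogonalGroup_iff' _ _).1 hk
  have hkT : k.1ᵀ ∈ Matrix.orthogonalGroup (Fin n × Fin 2) ℝ := by
    rw [Matrix.mem_orthogonalGroup_iff, Matrix.transpose_transpose]
    exact hk2
  refine shm_core a b c ha hb hsum (mul_mem hkT hg) (mul_mem hkT hh) ?_
  have e' : k.1ᵀ * (g.1 * Jmat a * g.1ᵀ + h'.1 * Jmat b * h'.1ᵀ) * k.1
      = k.1ᵀ * (k.1 * Jmat c * k.1ᵀ) * k.1 := by rw [e]
  have e3 : k.1ᵀ * (k.1 * Jmat c * k.1ᵀ) * k.1 = Jmat c := by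
    calc k.1ᵀ * (k.1 * Jmat c * k.1ᵀ) * k.1 = (k.1ᵀ * k.1) * Jmat c * (k.1ᵀ * k.1) := by
          simp only [Matrix.mul_assoc]
      _ = Jmat c := by rw [hk2, Matrix.one_mul, Matrix.mul_one]
  rw [e3] at e'
  rw [← e']
  simp only [Matrix.transpose_mul, Matrix.transpose_transpose, Matrix.mul_add, Matrix.add_mul, Matrix.mul_assoc]

theorem shm_D_shift (x : Vec n) (s : ℝ) : shm_D (x + s • oneV n) = shm_D x + (s : ℂ) • 1 := by
  ext i j
  by_cases h : i = j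
  · subst h
    simp [shm_D, oneV]
  · simp [shm_D, h]

theorem shm_conj_shift (g : Matrix.unitaryGroup (Fin n) ℂ) (x : Vec n) (s : ℝ) :
    g.1 * shm_D (x + s • oneV n) * g.1ᴴ = g.1 * shm_D x * g.1ᴴ + (s : ℂ) • 1 := by
  have hg : g.1 * g.1ᴴ = 1 := Matrix.mem_unitaryGroup_iff.1 g.2
  rw [shm_D_shift, Matrix.mul_add, Matrix.add_mul, Matrix.mul_smul, Matrix.smul_mul, Matrix.mul_one, hg]

/-- (S3) -/
theorem momentA_shift (a b c : Vec n) (s t : ℝ) :
    MomentA (a + s • oneV n) (b + t • oneV n) (c + (s + t) • oneV n) ↔ MomentA a b c := by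
  have key : ∀ g h k : Matrix.unitaryGroup (Fin n) ℂ,
      (g.1 * shm_D (a + s • oneV n) * g.1ᴴ + h.1 * shm_D (b + t • oneV n) * h.1ᴴ
        = k.1 * shm_D (c + (s + t) • oneV n) * k.1ᴴ) ↔
      (g.1 * shm_D a * g.1ᴴ + h.1 * shm_D b * h.1ᴴ = k.1 * shm_D c * k.1ᴴ) := by
    intro g h k
    rw [shm_conj_shift, shm_conj_shift, shm_conj_shift]
    have e : ((s + t : ℝ) : ℂ) • (1 : Matrix (Fin n) (Fin n) ℂ) = (s : ℂ) • 1 + (t : ℂ) • 1 := by
      rw [← add_smul]; push_cast; rfl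
    rw [e]
    constructor
    · intro h1
      have h2 : g.1 * shm_D a * g.1ᴴ + h.1 * shm_D b * h.1ᴴ + ((s : ℂ) • 1 + (t : ℂ) • 1)
          = k.1 * shm_D c * k.1ᴴ + ((s : ℂ) • 1 + (t : ℂ) • 1) := by
        rw [← h1]; abel
      exact add_right_cancel h2
    · intro h1
      rw [← h1]; abel
  constructor
  · rintro ⟨g, h, k, e⟩
    exact ⟨g, h, k, (key g h k).1 e⟩
  · rintro ⟨g, h, k, e⟩
    exact ⟨g, h, k, (key g h k).2 e⟩

theorem shm_trace_conj (g : Matrix.unitaryGroup (Fin n) ℂ) (x : Vec n) :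
    Matrix.trace (g.1 * shm_D x * g.1ᴴ) = ((∑ j, x j : ℝ) : ℂ) := by
  have hg : g.1ᴴ * g.1 = 1 := Matrix.mem_unitaryGroup_iff'.1 g.2
  rw [Matrix.trace_mul_comm, ← Matrix.mul_assoc, hg, Matrix.one_mul, shm_trace_D]

theorem momentA_central (a b c : Vec n) (h : MomentA a b c) : ∑ i, c i = ∑ i, a i + ∑ i, b i := by
  obtain ⟨g, h', k, e⟩ := h
  have e' : g.1 * shm_D a * g.1ᴴ + h'.1 * shm_D b * h'.1ᴴ = k.1 * shm_D c * k.1ᴴ := e
  have ht := congrArg Matrix.trace e'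
  rw [Matrix.trace_add, shm_trace_conj, shm_trace_conj, shm_trace_conj] at ht
  exact_mod_cast ht.symm

end Claimed.Agent.R282
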